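import Mathlib.Analysis.InnerProductSpace.Adjoint
import Mathlib.Analysis.InnerProductSpace.ProdL2
import Mathlib.Analysis.VonNeumannAlgebra.Basic

/-!
# P352W: the bicommutant lemma for two vectors
-/

set_option linter.all false

noncomputable section

namespace Vale.Agent.P352W.Net

variable {H : Type*} [NormedAddCommGroup H] [InnerProductSpace ℂ H] [CompleteSpace H]

/-- the diagonal action on the sum of two copies -/
def dg (a : H →L[ℂ] H) (x : WithLp 2 (H × H)) : WithLp 2 (H × H) :=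
  WithLp.toLp 2 (a x.fst, a x.snd)

lemma dg_inner (a : H →L[ℂ] H) (x y : WithLp 2 (H × H)) :
    inner ℂ x (dg a y) = inner ℂ (dg (star a) x) y := by
  simp only [dg, WithLp.prod_inner_apply, ContinuousLinearMap.star_eq_adjoint,
    ContinuousLinearMap.adjoint_inner_left]
  rfl

lemma dg_cont (a : H →L[ℂ] H) : Continuous (dg a) := by
  unfold dg
  fun_prop

lemma dg_add (a : H →L[ℂ] H) (x y : WithLp 2 (H × H)) : dg a (x + y) = dg a x + dg a y := by
  unfold dg
  simp
  rfl

lemma dg_smul (a : H →L[ℂ] H) (c : ℂ) (x : WithLp 2 (H × H)) : dg a (c • x) = c • dg a x := by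
  unfold dg
  simp
  rfl

lemma dg_zero (a : H →L[ℂ] H) : dg a 0 = 0 := by
  have h := dg_smul a 0 0
  rwa [zero_smul, zero_smul] at h

lemma dg_mul (a b : H →L[ℂ] H) (x : WithLp 2 (H × H)) : dg a (dg b x) = dg (a * b) x := rfl

/-- the first and the second embedding -/
def i1 : H →L[ℂ] WithLp 2 (H × H) :=
  (WithLp.prodContinuousLinearEquiv 2 ℂ H H).symm.toContinuousLinearMap ∘L
    ContinuousLinearMap.inl ℂ H H

def i2 : H →L[ℂ] WithLp 2 (H × H) :=
  (WithLp.prodContinuousLinearEquiv 2 ℂ H H).symm.toContinuousLinearMap ∘L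
    ContinuousLinearMap.inr ℂ H H

def p1 : WithLp 2 (H × H) →L[ℂ] H :=
  ContinuousLinearMap.fst ℂ H H ∘L (WithLp.prodContinuousLinearEquiv 2 ℂ H H).toContinuousLinearMap

def p2 : WithLp 2 (H × H) →L[ℂ] H :=
  ContinuousLinearMap.snd ℂ H H ∘L (WithLp.prodContinuousLinearEquiv 2 ℂ H H).toContinuousLinearMap

lemma i1_apply (v : H) : i1 v = WithLp.toLp 2 (v, (0 : H)) := rfl
lemma i2_apply (v : H) : i2 v = WithLp.toLp 2 ((0 : H), v) := rfl
lemma p1_apply (x : WithLp 2 (H × H)) : p1 x = x.fst := rfl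
lemma p2_apply (x : WithLp 2 (H × H)) : p2 x = x.snd := rfl

lemma dg_i1 (a : H →L[ℂ] H) (v : H) : dg a (i1 v) = i1 (a v) := by
  simp [dg, i1_apply]

lemma dg_i2 (a : H →L[ℂ] H) (v : H) : dg a (i2 v) = i2 (a v) := by
  simp [dg, i2_apply]

lemma split (x : WithLp 2 (H × H)) : x = i1 x.fst + i2 x.snd := by
  rw [i1_apply, i2_apply, ← WithLp.toLp_add]
  simp
  rfl

/-- **A linear relation between two matrix elements passes to the bicommutant.** -/
theorem bic2 (S : Set (H →L[ℂ] H)) (h1 : (1 : H →L[ℂ] H) ∈ S)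
    (hm : ∀ a ∈ S, ∀ b ∈ S, a * b ∈ S) (hs : ∀ a ∈ S, star a ∈ S)
    {Y : H →L[ℂ] H} (hY : Y ∈ Set.centralizer (Set.centralizer S)) {v1 v2 w1 w2 : H}
    (h : ∀ a ∈ S, inner ℂ w1 (a v1) = inner ℂ w2 (a v2)) :
    inner ℂ w1 (Y v1) = inner ℂ w2 (Y v2) := by
  set ξ : WithLp 2 (H × H) := WithLp.toLp 2 (v1, v2) with hξ
  set K0 : Submodule ℂ (WithLp 2 (H × H)) := Submodule.span ℂ ((fun a => dg a ξ) '' S) with hK0
  set K := K0.topologicalClosure with hK
  have hinv0 : ∀ a ∈ S, ∀ x ∈ K0, dg a x ∈ K0 := by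
    intro a ha x hx
    induction hx using Submodule.span_induction with
    | mem x hx =>
      obtain ⟨b, hb, rfl⟩ := hx
      exact Submodule.subset_span ⟨a * b, hm a ha b hb, rfl⟩
    | zero => rw [dg_zero]; exact K0.zero_mem
    | add x y _ _ hx hy => rw [dg_add]; exact K0.add_mem hx hy
    | smul c x _ hx => rw [dg_smul]; exact K0.smul_mem c hx
  have hinv : ∀ a ∈ S, ∀ x ∈ K, dg a x ∈ K := by
    intro a ha x hx
    have hmt : Set.MapsTo (dg a) (K0 : Set (WithLp 2 (H × H))) (K0 : Set (WithLp 2 (H × H))) :=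
      fun y hy => hinv0 a ha y hy
    exact hmt.closure (dg_cont a) hx
  haveI : CompleteSpace K := K0.isClosed_topologicalClosure.completeSpace_coe
  set P := K.starProjection with hP
  have hc : ∀ a ∈ S, ∀ x, P (dg a x) = dg a (P x) := by
    intro a ha x
    refine Submodule.eq_starProjection_of_mem_orthogonal'
      (hinv a ha _ (K.starProjection_apply_mem x)) (z := dg a (x - P x)) ?_ ?_
    · rw [Submodule.mem_orthogonal]
      intro u hu
      rw [dg_inner]
      exact (Submodule.mem_orthogonal _ _).1 (K.sub_starProjection_mem_orthogonal x) _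
        (hinv _ (hs a ha) u hu)
    · rw [← dg_add]
      congr 1
      abel
  have ent : ∀ (p : WithLp 2 (H × H) →L[ℂ] H) (i : H →L[ℂ] WithLp 2 (H × H)),
      (∀ (a : H →L[ℂ] H) x, p (dg a x) = a (p x)) → (∀ (a : H →L[ℂ] H) v, dg a (i v) = i (a v)) →
      ∀ v, p (P (i (Y v))) = Y (p (P (i v))) := by
    intro p i hp hi v
    have hmem : p ∘L P ∘L i ∈ Set.centralizer S := by
      intro a ha
      ext z
      show a (p (P (i z))) = p (P (i (a z)))
      rw [← hi, hc a ha, hp]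
    exact congrArg (fun T : H →L[ℂ] H => T v) (hY _ hmem)
  have hξK : ξ ∈ K := K0.le_topologicalClosure (Submodule.subset_span ⟨1, h1, rfl⟩)
  have hPξ : P (i1 v1) + P (i2 v2) = ξ := by
    rw [← map_add]
    have e : i1 v1 + i2 v2 = ξ := (split ξ).symm
    rw [e]
    exact Submodule.starProjection_eq_self_iff.2 hξK
  have hfix : P (dg Y ξ) = dg Y ξ := by
    have e : dg Y ξ = i1 (Y v1) + i2 (Y v2) := split _
    have q1 : p1 (P (dg Y ξ)) = Y v1 := by
      rw [e, map_add, map_add, ent p1 i1 (fun _ _ => rfl) dg_i1, ent p1 i2 (fun _ _ => rfl) dg_i2,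
        ← map_add, ← map_add, hPξ]
      rfl
    have q2 : p2 (P (dg Y ξ)) = Y v2 := by
      rw [e, map_add, map_add, ent p2 i1 (fun _ _ => rfl) dg_i1, ent p2 i2 (fun _ _ => rfl) dg_i2,
        ← map_add, ← map_add, hPξ]
      rfl
    rw [split (P (dg Y ξ)), ← p1_apply, ← p2_apply, q1, q2, ← e]
  have hYK : dg Y ξ ∈ K := hfix ▸ K.starProjection_apply_mem _
  set η : WithLp 2 (H × H) := WithLp.toLp 2 (w1, -w2) with hη
  have key : ∀ a : H →L[ℂ] H, inner ℂ η (dg a ξ) = inner ℂ w1 (a v1) - inner ℂ w2 (a v2) := by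
    intro a
    simp only [hη, hξ, dg, WithLp.prod_inner_apply, inner_neg_left]
    rfl
  have h0 : ∀ x ∈ K0, inner ℂ η x = 0 := by
    intro x hx
    induction hx using Submodule.span_induction with
    | mem x hx =>
      obtain ⟨b, hb, rfl⟩ := hx
      rw [key, h b hb, sub_self]
    | zero => exact inner_zero_right _
    | add x y _ _ hx hy => rw [inner_add_right, hx, hy, add_zero]
    | smul c x _ hx => rw [inner_smul_right, hx, mul_zero]
  have hcl : IsClosed {x : WithLp 2 (H × H) | inner ℂ η x = 0} :=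
    isClosed_eq (by fun_prop) continuous_const
  have hsub : (K0 : Set (WithLp 2 (H × H))) ⊆ {x | inner ℂ η x = 0} := fun x hx => h0 x hx
  have h2 : inner ℂ η (dg Y ξ) = 0 := closure_minimal hsub hcl hYK
  rw [key] at h2
  exact sub_eq_zero.1 h2

variable {Z : Type*} [TopologicalSpace Z]

/-- the union of the commutants of the algebras of the open neighbourhoods of `O` -/
def cm (N : Set Z → VonNeumannAlgebra H) (O : Set Z) : Set (H →L[ℂ] H) :=
  {Y | ∃ U, IsOpen U ∧ O ⊆ U ∧ Y ∈ (N U).commutant}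

lemma cm_star (N : Set Z → VonNeumannAlgebra H) (O : Set Z) : ∀ Y ∈ cm N O, star Y ∈ cm N O :=
  fun _ ⟨U, h1, h2, h3⟩ => ⟨U, h1, h2, star_mem h3⟩

/-- the intersection of the algebras of the open neighbourhoods of `O` -/
def hl (N : Set Z → VonNeumannAlgebra H) (O : Set Z) : VonNeumannAlgebra H where
  toStarSubalgebra := StarSubalgebra.centralizer ℂ (cm N O)
  centralizer_centralizer' := by simp

lemma hl_coe (N : Set Z → VonNeumannAlgebra H) (O : Set Z) :
    (hl N O : Set (H →L[ℂ] H)) = Set.centralizer (cm N O) := by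
  have e : cm N O ∪ star (cm N O) = cm N O := by
    refine Set.union_eq_self_of_subset_right fun Y hY => ?_
    have h := cm_star N O _ (Set.mem_star.1 hY)
    rwa [star_star] at h
  show ((StarSubalgebra.centralizer ℂ (cm N O) : StarSubalgebra ℂ (H →L[ℂ] H)) :
    Set (H →L[ℂ] H)) = _
  rw [StarSubalgebra.coe_centralizer, e]

lemma mem_hl {N : Set Z → VonNeumannAlgebra H} {O : Set Z} {X : H →L[ℂ] H} :
    X ∈ hl N O ↔ ∀ U, IsOpen U → O ⊆ U → X ∈ N U := by
  rw [← SetLike.mem_coe, hl_coe]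
  constructor
  · intro h U h1 h2
    rw [← (N U).commutant_commutant, VonNeumannAlgebra.mem_commutant_iff]
    exact fun g hg => h g ⟨U, h1, h2, hg⟩
  · rintro h g ⟨U, h1, h2, h3⟩
    exact (VonNeumannAlgebra.mem_commutant_iff.1 h3 X (h U h1 h2)).symm

lemma hl_weak {N : Set Z → VonNeumannAlgebra H} (mono : ∀ O O', O ⊆ O' → ∀ X ∈ N O, X ∈ N O')
    {O : Set Z} {v1 v2 w1 w2 : H} (h : ∀ U, IsOpen U → O ⊆ U → ∀ Y ∈ (N U).commutant,
      inner ℂ w1 (Y v1) = inner ℂ w2 (Y v2)) :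
    ∀ Y ∈ (hl N O).commutant, inner ℂ w1 (Y v1) = inner ℂ w2 (Y v2) := by
  intro Y hY
  rw [← SetLike.mem_coe, VonNeumannAlgebra.coe_commutant, hl_coe] at hY
  refine bic2 (cm N O) ⟨Set.univ, isOpen_univ, Set.subset_univ _, one_mem _⟩ ?_ (cm_star N O) hY ?_
  · rintro a ⟨U, h1, h2, h3⟩ b ⟨U', h1', h2', h3'⟩
    refine ⟨U ∩ U', h1.inter h1', Set.subset_inter h2 h2', mul_mem ?_ ?_⟩
    · exact VonNeumannAlgebra.mem_commutant_iff.2 fun g hg =>
        VonNeumannAlgebra.mem_commutant_iff.1 h3 g (mono _ _ Set.inter_subset_left g hg)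
    · exact VonNeumannAlgebra.mem_commutant_iff.2 fun g hg =>
        VonNeumannAlgebra.mem_commutant_iff.1 h3' g (mono _ _ Set.inter_subset_right g hg)
  · rintro a ⟨U, h1, h2, h3⟩
    exact h U h1 h2 a h3

end Vale.Agent.P352W.Net
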