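import Mathlib

/-! # P352W: exponentials of symmetric operators with analytic vectors -/

set_option autoImplicit false
set_option linter.all false

open Filter Topology Finset
open UniformSpace (Completion)
open scoped Nat Classical

noncomputable section

namespace Vale.Agent.P352W.Net

variable {D : Type*} [NormedAddCommGroup D] [InnerProductSpace ℂ D]

/-- a symmetric operator all of whose vectors are analytic -/
structure An (X : D →ₗ[ℂ] D) : Prop where
  sym : ∀ v w, inner ℂ (X v) w = inner ℂ v (X w)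
  sum : ∀ v, Summable fun n : ℕ => ‖(X ^ n) v‖ / n !

/-- the terms of the exponential series -/
def tm (X : D →ₗ[ℂ] D) (v : D) (n : ℕ) : D := (Complex.I ^ n / n ! : ℂ) • (X ^ n) v

/-- the exponential `exp (i X)` -/
def W (X : D →ₗ[ℂ] D) : Completion D →L[ℂ] Completion D :=
  if h : ∃ T : Completion D →L[ℂ] Completion D,
    ∀ v : D, HasSum (fun n => ((tm X v n : D) : Completion D)) (T v) then h.choose else 0

theorem norm_tm (X : D →ₗ[ℂ] D) (v : D) (n : ℕ) : ‖tm X v n‖ = ‖(X ^ n) v‖ / n ! := by
  rw [tm, norm_smul, norm_div, norm_pow, Complex.norm_I, one_pow, Complex.norm_natCast]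
  ring

theorem inner_sum {H : Type*} [NormedAddCommGroup H] [InnerProductSpace ℂ H] {a b : ℕ → H} {x y : H}
    (ha : Summable fun n => ‖a n‖) (hb : Summable fun n => ‖b n‖) (hx : HasSum a x)
    (hy : HasSum b y) : HasSum (fun p : ℕ × ℕ => inner ℂ (a p.1) (b p.2)) (inner ℂ x y) := by
  have s : Summable fun p : ℕ × ℕ => inner ℂ (a p.1) (b p.2) :=
    .of_norm_bounded (ha.mul_of_nonneg hb (fun _ => norm_nonneg _) fun _ => norm_nonneg _)
      fun p => norm_inner_le_norm _ _
  have h1 : HasSum (fun n => inner ℂ (a n) y) (∑' p : ℕ × ℕ, inner ℂ (a p.1) (b p.2)) :=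
    s.hasSum.prod_fiberwise fun n => (innerSL ℂ (a n)).hasSum hy
  have h2 : HasSum (fun n => inner ℂ (a n) y) (inner ℂ x y) := by
    have := ((innerSL ℂ y).hasSum hx).star
    simpa using this
  rw [← h1.unique h2]
  exact s.hasSum

namespace An

variable {X Y : D →ₗ[ℂ] D}

theorem pw (h : An X) (n : ℕ) (v w : D) : inner ℂ ((X ^ n) v) w = inner ℂ v ((X ^ n) w) := by
  induction n generalizing v w with
  | zero => simp
  | succ n ih =>
    rw [pow_succ', Module.End.mul_apply, h.sym, ih, ← Module.End.mul_apply, ← pow_succ, pow_succ']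

theorem sn (h : An X) (v : D) : Summable fun n => ‖((tm X v n : D) : Completion D)‖ := by
  simpa only [Completion.norm_coe, norm_tm] using h.sum v

theorem sc (h : An X) (v : D) : Summable fun n => ((tm X v n : D) : Completion D) := (h.sn v).of_norm

theorem smul (h : An X) {t : ℝ} (ht : |t| ≤ 1) : An ((t : ℂ) • X) where
  sym v w := by simp [inner_smul_left, inner_smul_right, h.sym]
  sum v := by
    refine .of_nonneg_of_le (fun _ => by positivity) (fun n => ?_) (h.sum v)
    rw [smul_pow, LinearMap.smul_apply, norm_smul, norm_pow, Complex.norm_real, Real.norm_eq_abs]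
    gcongr
    exact mul_le_of_le_one_left (norm_nonneg _) (pow_le_one₀ (abs_nonneg _) ht)

theorem neg (h : An X) : An (-X) := by
  simpa using h.smul (t := -1) (by simp)

theorem iso0 (h : An X) (v w : D) :
    HasSum (fun p : ℕ × ℕ => inner ℂ (tm X v p.1) (tm X w p.2)) (inner ℂ v w) := by
  have s := (inner_sum (h.sn v) (h.sn w) (h.sc v).hasSum (h.sc w).hasSum).summable
  simp only [Completion.inner_coe] at s
  have s1 := (Finset.HasAntidiagonal.sigmaAntidiagonalEquivProd.hasSum_iff).2 s.hasSum
  have s2 := s1.sigma (g := fun k => if k = 0 then inner ℂ v w else 0) fun k => by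
    have e : ∑ p ∈ antidiagonal k, inner ℂ (tm X v p.1) (tm X w p.2) =
        (-Complex.I + Complex.I) ^ k / k ! * inner ℂ v ((X ^ k) w) := by
      rw [(Commute.all _ _).add_pow', sum_div, sum_mul]
      refine sum_congr rfl fun p hp => ?_
      obtain ⟨a, b⟩ := p
      obtain rfl : a + b = k := by simpa using hp
      have f : ((a + b)! : ℂ) = (a + b).choose a * a ! * b ! := by
        rw [add_comm a b, ← Nat.add_choose_mul_factorial_mul_factorial b a]
        push_cast; ring
      have c0 : ((a + b).choose a : ℂ) ≠ 0 :=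
        Nat.cast_ne_zero.2 (Nat.choose_pos (Nat.le_add_right a b)).ne'
      have a0 : (a ! : ℂ) ≠ 0 := Nat.cast_ne_zero.2 a.factorial_ne_zero
      have b0 : (b ! : ℂ) ≠ 0 := Nat.cast_ne_zero.2 b.factorial_ne_zero
      simp only [tm, inner_smul_left, inner_smul_right, h.pw, ← Module.End.mul_apply, ← pow_add, f,
        map_div₀, map_pow, Complex.conj_I, map_natCast, nsmul_eq_mul]
      field_simp
    have e2 : (if k = 0 then inner ℂ v w else 0) =
        ∑ p ∈ antidiagonal k, inner ℂ (tm X v p.1) (tm X w p.2) := by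
      rw [e]
      split_ifs with hk
      · simp [hk]
      · simp [hk]
    rw [e2, ← Finset.sum_coe_sort]
    exact hasSum_fintype _
  have s3 : HasSum (fun k : ℕ => if k = 0 then inner ℂ v w else 0) (inner ℂ v w) :=
    hasSum_ite_eq 0 _
  rw [← s2.unique s3]
  exact s.hasSum

theorem hs (h : An X) (v : D) : HasSum (fun n => ((tm X v n : D) : Completion D)) (W X v) := by
  have ex : ∃ T : Completion D →L[ℂ] Completion D,
      ∀ v : D, HasSum (fun n => ((tm X v n : D) : Completion D)) (T v) := by
    let E : D →ₗ[ℂ] Completion D :=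
      { toFun := fun v => ∑' n, ((tm X v n : D) : Completion D)
        map_add' := fun v w => by
          rw [← (h.sc v).tsum_add (h.sc w)]
          simp only [tm, map_add, smul_add, Completion.coe_add]
        map_smul' := fun c v => by
          rw [RingHom.id_apply, ← (h.sc v).tsum_const_smul c]
          simp only [tm, map_smul, ← Completion.coe_smul, smul_comm c] }
    have hE : ∀ v, ‖E v‖ ≤ 1 * ‖(Completion.toComplL : D →L[ℂ] Completion D).toLinearMap v‖ := by
      intro v
      have a := inner_sum (h.sn v) (h.sn v) (h.sc v).hasSum (h.sc v).hasSum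
      simp only [Completion.inner_coe] at a
      have b : inner ℂ (E v) (E v) = inner ℂ v v := a.unique (h.iso0 v v)
      have c : ‖E v‖ = ‖v‖ := by
        rw [norm_eq_sqrt_re_inner (𝕜 := ℂ), b, ← norm_eq_sqrt_re_inner]
      simp [c]
    refine ⟨E.extendOfNorm (Completion.toComplL : D →L[ℂ] Completion D).toLinearMap, fun v => ?_⟩
    have := LinearMap.extendOfNorm_eq (f := E)
      (e := (Completion.toComplL : D →L[ℂ] Completion D).toLinearMap) Completion.denseRange_coe
      ⟨1, hE⟩ v
    have e : (Completion.toComplL : D →L[ℂ] Completion D).toLinearMap v = (v : Completion D) := rfl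
    rw [e] at this
    rw [this]
    exact (h.sc v).hasSum
  rw [W, dif_pos ex]
  exact ex.choose_spec v

end An

/-- bounded operators are determined by their matrix elements on `D` -/
theorem ext2 {S T : Completion D →L[ℂ] Completion D}
    (h : ∀ v w : D, inner ℂ (w : Completion D) (S v) = inner ℂ (w : Completion D) (T v)) : S = T := by
  ext z
  refine Completion.induction_on z (isClosed_eq S.continuous T.continuous) fun v => ?_
  refine ext_inner_left ℂ fun y => ?_
  exact Completion.induction_on y (isClosed_eq (by fun_prop) (by fun_prop)) fun w => h v w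

namespace An

variable {X Y : D →ₗ[ℂ] D}

theorem tm_adj (h : An X) (v w : D) (n : ℕ) : inner ℂ (tm (-X) w n) v = inner ℂ w (tm X v n) := by
  have e : (-X) ^ n = ((-1 : ℂ) ^ n) • X ^ n := by rw [← smul_pow, neg_one_smul]
  simp only [tm, e, LinearMap.smul_apply, inner_smul_left, inner_smul_right, h.pw, map_div₀, map_pow,
    Complex.conj_I, map_natCast, map_neg, map_one]
  rw [← mul_assoc, div_mul_eq_mul_div, ← mul_pow]
  simp

theorem star_W (h : An X) : star (W X) = W (-X) := by
  refine ext2 fun v w => ?_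
  rw [ContinuousLinearMap.star_eq_adjoint, ContinuousLinearMap.adjoint_inner_right]
  have a := (innerSL ℂ (w : Completion D)).hasSum (h.neg.hs v)
  have b := ((innerSL ℂ (v : Completion D)).hasSum (h.hs w)).star
  simp only [innerSL_apply_apply, Completion.inner_coe, RCLike.star_def, inner_conj_symm] at a b
  refine b.unique (a.congr_fun fun n => ?_)
  have := h.neg.tm_adj v w n
  rwa [neg_neg] at this

theorem adj_W (h : An X) (y z : Completion D) : inner ℂ (W (-X) y) z = inner ℂ y (W X z) := by
  rw [← h.star_W, ContinuousLinearMap.star_eq_adjoint, ContinuousLinearMap.adjoint_inner_left]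

theorem comm (h : An X) (k : An Y) (c : X * Y = Y * X) : W X * W Y = W Y * W X := by
  refine ext2 fun v w => ?_
  rw [ContinuousLinearMap.mul_apply, ContinuousLinearMap.mul_apply, ← h.adj_W, ← k.adj_W (w : Completion D)]
  have a := inner_sum (h.neg.sn w) (k.sn v) (h.neg.hs w) (k.hs v)
  have b := inner_sum (k.neg.sn w) (h.sn v) (k.neg.hs w) (h.hs v)
  have b' := (Equiv.prodComm ℕ ℕ).hasSum_iff.2 b
  refine a.unique (b'.congr_fun fun p => ?_)
  simp only [Function.comp, Equiv.prodComm_apply, Prod.fst_swap, Prod.snd_swap,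
    Completion.inner_coe, h.tm_adj, k.tm_adj]
  have e : X ^ p.1 * Y ^ p.2 = Y ^ p.2 * X ^ p.1 := (Commute.pow_pow c _ _).eq
  simp only [tm, map_smul, ← Module.End.mul_apply, e, smul_smul, mul_comm]

/-- intertwiners -/
theorem cov (h : An X) (k : An Y) (U : D →ₗ[ℂ] D) (U' : Completion D →L[ℂ] Completion D)
    (hU : ∀ v : D, U' v = (U v : D)) (c : ∀ v, U (X v) = Y (U v)) : U' * W X = W Y * U' := by
  ext z
  refine Completion.induction_on z (isClosed_eq (by fun_prop) (by fun_prop)) fun v => ?_
  rw [ContinuousLinearMap.mul_apply, ContinuousLinearMap.mul_apply, hU]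
  refine (U'.hasSum (h.hs v)).unique ((k.hs (U v)).congr_fun fun n => ?_)
  have e : ∀ n v, U ((X ^ n) v) = (Y ^ n) (U v) := by
    intro n
    induction n with
    | zero => simp
    | succ n ih => intro v; rw [pow_succ, pow_succ, Module.End.mul_apply, Module.End.mul_apply, ih, c]
  rw [hU, tm, tm, map_smul, e]

/-- first order expansion -/
theorem exp1 (h : An X) (v : D) : ∃ C : ℝ, ∀ t : ℝ, |t| ≤ 1 →
    ‖W ((t : ℂ) • X) v - (v : Completion D) - (Complex.I * t) • ((X v : D) : Completion D)‖ ≤
      C * t ^ 2 := by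
  have s2 : Summable fun n : ℕ => ‖(X ^ (n + 2)) v‖ / (n + 2)! :=
    (summable_nat_add_iff (f := fun n : ℕ => ‖(X ^ n) v‖ / n !) 2).2 (h.sum v)
  refine ⟨∑' n : ℕ, ‖(X ^ (n + 2)) v‖ / (n + 2)!, fun t ht => ?_⟩
  have a := (hasSum_nat_add_iff' 2).2 ((h.smul ht).hs v)
  have e : W ((t : ℂ) • X) v - (v : Completion D) - (Complex.I * t) • ((X v : D) : Completion D) =
      W ((t : ℂ) • X) v - ∑ i ∈ range 2, ((tm ((t : ℂ) • X) v i : D) : Completion D) := by
    simp only [sum_range_succ, range_zero, sum_empty, tm, sub_sub, ← Completion.coe_smul, smul_smul,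
      zero_add, pow_zero, pow_one, Nat.factorial_zero, Nat.factorial_one, Nat.cast_one, div_one,
      one_smul, Module.End.one_apply, LinearMap.smul_apply]
  rw [e]
  refine a.norm_le_of_bounded (s2.hasSum.mul_right (t ^ 2)) fun n => ?_
  rw [Completion.norm_coe, norm_tm, smul_pow, LinearMap.smul_apply, norm_smul, norm_pow,
    Complex.norm_real, Real.norm_eq_abs, pow_add, sq_abs]
  have : |t| ^ n ≤ 1 := pow_le_one₀ (abs_nonneg _) ht
  calc |t| ^ n * t ^ 2 * ‖(X ^ (n + 2)) v‖ / ((n + 2)! : ℝ)
      = |t| ^ n * (‖(X ^ (n + 2)) v‖ / (n + 2)! * t ^ 2) := by ring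
    _ ≤ _ := mul_le_of_le_one_left (by positivity) this

/-- an operator which commutes with the exponentials commutes weakly with the generator -/
theorem weak (h : An X) (Z : Completion D →L[ℂ] Completion D)
    (c : ∀ t : ℝ, |t| ≤ 1 → W ((t : ℂ) • X) * Z = Z * W ((t : ℂ) • X)) (v w : D) :
    inner ℂ ((X w : D) : Completion D) (Z v) = inner ℂ (w : Completion D) (Z (X v : D)) := by
  obtain ⟨C, hC⟩ := h.exp1 v
  obtain ⟨C', hC'⟩ := h.exp1 w
  set d := inner ℂ ((X w : D) : Completion D) (Z v) - inner ℂ (w : Completion D) (Z (X v : D))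
  have key : ∀ t : ℝ, 0 < t → t ≤ 1 → ‖d‖ ≤ (C' * ‖Z v‖ + ‖(w : Completion D)‖ * (‖Z‖ * C)) * t := by
    intro t t0 t1
    have ht : |t| ≤ 1 := by rwa [abs_of_pos t0]
    have ht' : |-t| ≤ 1 := by rwa [abs_neg]
    have e1 : inner ℂ (W (((-t : ℝ) : ℂ) • X) w) (Z v) =
        inner ℂ (w : Completion D) (Z (W ((t : ℂ) • X) v)) := by
      rw [Complex.ofReal_neg, neg_smul, (h.smul ht).adj_W, ← ContinuousLinearMap.mul_apply, c t ht,
        ContinuousLinearMap.mul_apply]
    set r := W ((t : ℂ) • X) v - (v : Completion D) - (Complex.I * t) • ((X v : D) : Completion D)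
    set r' := W (((-t : ℝ) : ℂ) • X) w - (w : Completion D) -
      (Complex.I * (-t : ℝ)) • ((X w : D) : Completion D)
    have e2 : (Complex.I * t) * d = inner ℂ (w : Completion D) (Z r) - inner ℂ r' (Z v) := by
      simp only [r, r', d, map_sub, map_smul, inner_sub_left, inner_sub_right, inner_smul_left,
        inner_smul_right, e1, map_mul, Complex.conj_I, Complex.conj_ofReal]
      push_cast
      ring
    have n1 : ‖inner ℂ (w : Completion D) (Z r)‖ ≤ ‖(w : Completion D)‖ * (‖Z‖ * (C * t ^ 2)) :=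
      (norm_inner_le_norm _ _).trans (mul_le_mul_of_nonneg_left ((Z.le_opNorm r).trans
        (mul_le_mul_of_nonneg_left (hC t ht) (norm_nonneg _))) (norm_nonneg _))
    have n2 : ‖inner ℂ r' (Z v)‖ ≤ C' * (-t) ^ 2 * ‖Z v‖ :=
      (norm_inner_le_norm _ _).trans (mul_le_mul_of_nonneg_right (hC' (-t) ht') (norm_nonneg _))
    have n3 : t * ‖d‖ ≤ ‖(w : Completion D)‖ * (‖Z‖ * (C * t ^ 2)) + C' * (-t) ^ 2 * ‖Z v‖ := by
      have : ‖(Complex.I * t) * d‖ = t * ‖d‖ := by simp [abs_of_pos t0]
      rw [← this, e2]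
      exact (norm_sub_le _ _).trans (add_le_add n1 n2)
    refine le_of_mul_le_mul_left ?_ t0
    refine n3.trans (le_of_eq ?_)
    ring
  have lim : Tendsto (fun t : ℝ => (C' * ‖Z v‖ + ‖(w : Completion D)‖ * (‖Z‖ * C)) * t) (𝓝[>] 0)
      (𝓝 0) := by
    have : Tendsto (fun t : ℝ => (C' * ‖Z v‖ + ‖(w : Completion D)‖ * (‖Z‖ * C)) * t) (𝓝 0) (𝓝 _) :=
      (continuous_const.mul continuous_id).tendsto 0
    simpa using this.mono_left nhdsWithin_le_nhds
  have : ‖d‖ ≤ 0 := ge_of_tendsto lim (by
    filter_upwards [Ioc_mem_nhdsGT (zero_lt_one' ℝ)] with t ht using key t ht.1 ht.2)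
  exact sub_eq_zero.1 (norm_le_zero_iff.1 this)

end An

/-- number operator bounds give analytic vectors; `P n v` : at most `n` particles -/
theorem an_of_fil {X : D →ₗ[ℂ] D} (P : ℕ → D → Prop) (ex : ∀ v, ∃ n, P n v)
    (sym : ∀ v w, inner ℂ (X v) w = inner ℂ v (X w)) (map : ∀ n v, P n v → P (n + 1) (X v))
    (C : ℝ) (bd : ∀ n v, P n v → ‖X v‖ ≤ C * √(n + 1) * ‖v‖) : An X where
  sym := sym
  sum v := by
    obtain ⟨n, hn⟩ := ex v
    have hP : ∀ k, P (n + k) ((X ^ k) v) := by
      intro k
      induction k with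
      | zero => simpa using hn
      | succ k ih => rw [pow_succ', Module.End.mul_apply]; exact map _ _ ih
    refine summable_of_ratio_norm_eventually_le (r := 1 / 2) (by norm_num) ?_
    filter_upwards [eventually_ge_atTop n, eventually_ge_atTop ⌈8 * C ^ 2⌉₊] with k k1 k2
    have k1' : (n : ℝ) ≤ k := Nat.cast_le.2 k1
    have k2' : 8 * C ^ 2 ≤ (k : ℝ) := Nat.ceil_le.1 k2
    have k0 : (0 : ℝ) ≤ k := Nat.cast_nonneg k
    have b : C * √((n + k : ℕ) + 1) ≤ (k + 1) / 2 := by
      refine le_of_sq_le_sq ?_ (by positivity)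
      rw [mul_pow, Real.sq_sqrt (by positivity)]
      push_cast
      nlinarith [sq_nonneg C]
    rw [Real.norm_of_nonneg (by positivity), Real.norm_of_nonneg (by positivity), pow_succ',
      Module.End.mul_apply, Nat.factorial_succ]
    have f0 : (0 : ℝ) < k ! := Nat.cast_pos.2 k.factorial_pos
    have := (bd _ _ (hP k)).trans (mul_le_mul_of_nonneg_right b (norm_nonneg _))
    push_cast
    rw [div_le_iff₀ (by positivity)]
    refine this.trans (le_of_eq ?_)
    field_simp

end Vale.Agent.P352W.Net
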