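import Vale.Agent.P352W.Net.Bic
import Vale.Agent.P352.BW.Lm
import Vale.Agent.P352.BW.U

/-!
# P352W: from nets with affiliation for open regions to nets for all regions
-/

set_option linter.all false

noncomputable section

namespace Vale.Agent.P352W.Net

open Vale.Agent.P352 Vale.Agent.P352.GF Vale.Agent.P352.BW Vale.Agent.P352.H246
open Vale.Agent.P352.H496 Vale.Agent.P352.H755 Vale.Agent.P352.H15
open UniformSpace (Completion)

variable {D : Type*} [NormedAddCommGroup D] [InnerProductSpace ℂ D] {Q : Theory D}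
  {A : (V → V) → D → D}

lemma sim_cont (s : ℝ) (L : Ix → V) (y : V) : Continuous (sim s L y) := by
  unfold sim
  fun_prop

lemma wdg_open (a b v : V) : IsOpen (Wdg a b v) := by
  have h : ∀ c : V, Continuous fun x : V => GF.mdot c (x - v) := fun c => by
    unfold GF.mdot
    fun_prop
  exact (isOpen_lt (h a) continuous_const).inter (isOpen_lt continuous_const (h b))

/-- two bounded operators that agree on the range of a similitude operator are equal -/
lemma eq_of_ue (R : Rep Q A) {s : ℝ} {L : Ix → V} (hs : 0 < s) (hL : IsLor L) (y : V)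
    {Y Y' : Completion D →L[ℂ] Completion D}
    (h : ∀ z, Y (Ue Q s L y z) = Y' (Ue Q s L y z)) : Y = Y' := by
  ext z
  induction z using Completion.induction_on with
  | hp => exact isClosed_eq Y.continuous Y'.continuous
  | ih v =>
    rw [← ue_inv R hs hL y v, ← ue_coe hs hL]
    exact h _

/-- affiliation to the algebras of all open neighbourhoods gives affiliation to the hull -/
lemma aff_hl {N : Set V → VonNeumannAlgebra (Completion D)}
    (mono : ∀ O O', O ⊆ O' → ∀ X ∈ N O, X ∈ N O') {O : Set V} {X : D → D}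
    (h : ∀ U, IsOpen U → O ⊆ U → Aff (N U) X) : Aff (hl N O) X := by
  obtain ⟨X', h1, -⟩ := h Set.univ isOpen_univ (Set.subset_univ _)
  refine ⟨X', h1, fun Y hY v w => hl_weak mono (fun U hU hO Y hY => ?_) Y hY⟩
  obtain ⟨X'', h2, h3⟩ := h U hU hO
  have e : X' w = X'' w := ext_inner_left ℂ fun u => by rw [← h1, ← h2]
  rw [e]
  exact h3 Y hY v w

/-- **The hull of a net is a net for all regions.** -/
theorem hull_lnm (hR : Rep Q A) (N : Set V → VonNeumannAlgebra (Completion D))
    (fld : ∀ O B f, IsOpen O → Q.fld B → In O f → Aff (N O) (B f))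
    (mono : ∀ O O', O ⊆ O' → ∀ X ∈ N O, X ∈ N O')
    (cov : ∀ s L y O, ∀ X ∈ N O, 0 < s → IsLor L →
      ∃ Y ∈ N (sim s L y '' O), ∀ z, Y (Ue Q s L y z) = Ue Q s L y (X z))
    (loc : ∀ a b X, IsNull a → IsNull b → GF.mdot a b = 1 →
      X ∈ N (Wdg b a 0) → X ∈ (N (Wdg a b 0)).commutant) : LNm Q A (hl N) where
  toRep := hR
  fld := fun O B f hB hf => aff_hl mono fun U hU hO =>
    fld U B f hU hB ⟨hf.1, hf.2.1, hf.2.2.trans hO⟩
  mono := fun O O' h X hX => mem_hl.2 fun U hU hO => mem_hl.1 hX U hU (h.trans hO)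
  cov := by
    intro s L y O X hX hs hL
    obtain ⟨Y, -, hY⟩ := cov s L y Set.univ X
      (mem_hl.1 hX _ isOpen_univ (Set.subset_univ _)) hs hL
    refine ⟨Y, mem_hl.2 fun U hU hO => ?_, hY⟩
    obtain ⟨Y', h1, h2⟩ := cov s L y (sim s L y ⁻¹' U) X
      (mem_hl.1 hX _ (hU.preimage (sim_cont s L y)) (Set.image_subset_iff.1 hO)) hs hL
    rw [eq_of_ue hR hs hL y (Y := Y) (Y' := Y') fun z => by rw [hY, h2]]
    exact mono _ _ (Set.image_preimage_subset _ _) Y' h1
  loc := by
    intro a b X ha hb hab hX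
    have h1 := loc a b X ha hb hab (mem_hl.1 hX _ (wdg_open b a 0) subset_rfl)
    exact VonNeumannAlgebra.mem_commutant_iff.2 fun g hg =>
      VonNeumannAlgebra.mem_commutant_iff.1 h1 g (mem_hl.1 hg _ (wdg_open a b 0) subset_rfl)

theorem hull (hR : Rep Q A) (N : Set V → VonNeumannAlgebra (Completion D))
    (fld : ∀ O B f, IsOpen O → Q.fld B → In O f → Aff (N O) (B f))
    (mono : ∀ O O', O ⊆ O' → ∀ X ∈ N O, X ∈ N O')
    (cov : ∀ s L y O, ∀ X ∈ N O, 0 < s → IsLor L →
      ∃ Y ∈ N (sim s L y '' O), ∀ z, Y (Ue Q s L y z) = Ue Q s L y (X z))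
    (loc : ∀ a b X, IsNull a → IsNull b → GF.mdot a b = 1 →
      X ∈ N (Wdg b a 0) → X ∈ (N (Wdg a b 0)).commutant) : ∃ N', LNm Q A N' :=
  ⟨hl N, hull_lnm hR N fld mono cov loc⟩

end Vale.Agent.P352W.Net
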