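import Vale.Agent.P352W.Net.Wy

/-! # P352W: the von Neumann algebra generated by a self-adjoint set -/

set_option autoImplicit false
set_option linter.all false

noncomputable section

namespace Vale.Agent.P352W.Net

variable {H : Type*} [NormedAddCommGroup H] [InnerProductSpace ℂ H] [CompleteSpace H]

/-- the commutant of a set and of its adjoints -/
def cmt (S : Set (H →L[ℂ] H)) : VonNeumannAlgebra H where
  toStarSubalgebra := StarSubalgebra.centralizer ℂ S
  centralizer_centralizer' := by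
    show Set.centralizer (Set.centralizer (SetLike.coe (StarSubalgebra.centralizer ℂ S))) =
      SetLike.coe (StarSubalgebra.centralizer ℂ S)
    rw [StarSubalgebra.coe_centralizer, Set.centralizer_centralizer_centralizer]

/-- the bicommutant -/
def vn (S : Set (H →L[ℂ] H)) : VonNeumannAlgebra H := (cmt S).commutant

variable {S S' : Set (H →L[ℂ] H)}

theorem vn_comm : (vn S).commutant = cmt S := VonNeumannAlgebra.commutant_commutant _

theorem mem_cmt (h : ∀ g ∈ S, star g ∈ S) {Z : H →L[ℂ] H} : Z ∈ cmt S ↔ ∀ g ∈ S, g * Z = Z * g := by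
  show Z ∈ StarSubalgebra.centralizer ℂ S ↔ _
  rw [StarSubalgebra.mem_centralizer_iff]
  exact ⟨fun a g m => (a g m).1, fun a g m => ⟨a g m, a _ (h g m)⟩⟩

theorem mem_vn {X : H →L[ℂ] H} : X ∈ vn S ↔ ∀ Z ∈ cmt S, Z * X = X * Z :=
  VonNeumannAlgebra.mem_commutant_iff

theorem vn_mono (h : ∀ g ∈ S, star g ∈ S) (h' : ∀ g ∈ S', star g ∈ S') (le : S ⊆ S') :
    ∀ X ∈ vn S, X ∈ vn S' := fun X m =>
  mem_vn.2 fun Z z => mem_vn.1 m Z ((mem_cmt h).2 fun g a => (mem_cmt h').1 z g (le a))

theorem vn_loc (h : ∀ g ∈ S, star g ∈ S) (h' : ∀ g ∈ S', star g ∈ S')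
    (c : ∀ g ∈ S, ∀ g' ∈ S', g * g' = g' * g) : ∀ X ∈ vn S, X ∈ (vn S').commutant := by
  intro X m
  rw [vn_comm, mem_cmt h']
  exact fun g' a => mem_vn.1 m g' ((mem_cmt h).2 fun g b => c g b g' a)

theorem vn_cov (h : ∀ g ∈ S, star g ∈ S) (h' : ∀ g ∈ S', star g ∈ S') (U U' : H →L[ℂ] H)
    (i : U * U' = 1) (i' : U' * U = 1) (c : ∀ g ∈ S, ∃ g' ∈ S', U * g = g' * U) :
    ∀ X ∈ vn S, ∃ Y ∈ vn S', Y * U = U * X := by
  intro X m
  refine ⟨U * X * U', mem_vn.2 fun Z z => ?_, by rw [mul_assoc, i', mul_one]⟩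
  have k : U' * Z * U ∈ cmt S := (mem_cmt h).2 fun g a => by
    obtain ⟨g', a', e⟩ := c g a
    have e' : g * U' = U' * g' := by
      calc g * U' = U' * (U * g) * U' := by rw [← mul_assoc, i', one_mul]
        _ = U' * g' * (U * U') := by rw [e]; simp only [mul_assoc]
        _ = _ := by rw [i, mul_one]
    calc g * (U' * Z * U) = (g * U') * Z * U := by simp only [mul_assoc]
      _ = U' * (g' * Z) * U := by rw [e']; simp only [mul_assoc]
      _ = U' * Z * (g' * U) := by rw [(mem_cmt h').1 z g' a']; simp only [mul_assoc]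
      _ = _ := by rw [← e]; simp only [mul_assoc]
  calc Z * (U * X * U') = (U * U') * Z * (U * X * U') := by rw [i, one_mul]
    _ = U * (U' * Z * U * X) * U' := by simp only [mul_assoc]
    _ = U * X * U' * Z * (U * U') := by rw [mem_vn.1 m _ k]; simp only [mul_assoc]
    _ = _ := by rw [i, mul_one]

end Vale.Agent.P352W.Net
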