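import Vale.Agent.P352W.Net.Vn
import Vale.Agent.P352W.Net.Hull
import Vale.Agent.P352W.Gl.Ps0

/-! # P352W: the net generated by the exponentials of a scalar field -/

set_option autoImplicit false
set_option linter.all false

noncomputable section

namespace Vale.Agent.P352W.Net

open Vale.Agent.P352 Vale.Agent.P352.GF Vale.Agent.P352.BW Vale.Agent.P352.H246
open Vale.Agent.P352.H496 Vale.Agent.P352.H755 Vale.Agent.P352.H15
open UniformSpace (Completion)
open scoped ContDiff

variable {D : Type*} [NormedAddCommGroup D] [InnerProductSpace ℂ D] {Q : Theory D}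
  {A : (V → V) → D → D} {φ : Fld D} {d : ℝ}

/-- the exponentials of the field smeared with real functions in `O` -/
def gen (φ : Fld D) (O : Set V) : Set (Completion D →L[ℂ] Completion D) :=
  {g | ∃ (f : Fn) (X : D →ₗ[ℂ] D), In O f ∧ bar f = f ∧ (∀ v, X v = φ f v) ∧ g = W X}

/-- the net -/
def net (φ : Fld D) (O : Set V) : VonNeumannAlgebra (Completion D) := vn (gen φ O)

/-- all vectors are analytic for the field -/
def Ana (φ : Fld D) : Prop :=
  ∀ (f : Fn) (X : D →ₗ[ℂ] D), GF.IsTest f → bar f = f → (∀ v, X v = φ f v) → An X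

theorem null_pos {a z : V} (ha : IsNull a) (hz : 0 ≤ GF.mdot z z) (h0 : 0 ≤ z o) :
    0 ≤ GF.mdot a z := by
  obtain ⟨h1, h2⟩ := ha
  simp only [GF.mdot, Fin.sum_univ_four, eta, o] at *
  simp at *
  have c : (a 1 * z 1 + a 2 * z 2 + a 3 * z 3) ^ 2 ≤ (a 0 * z 0) ^ 2 := by
    have e : (a 1 * z 1 + a 2 * z 2 + a 3 * z 3) ^ 2 ≤
        (a 1 ^ 2 + a 2 ^ 2 + a 3 ^ 2) * (z 1 ^ 2 + z 2 ^ 2 + z 3 ^ 2) := by
      nlinarith [sq_nonneg (a 1 * z 2 - a 2 * z 1), sq_nonneg (a 1 * z 3 - a 3 * z 1),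
        sq_nonneg (a 2 * z 3 - a 3 * z 2)]
    have e1 : a 1 ^ 2 + a 2 ^ 2 + a 3 ^ 2 = a 0 ^ 2 := by nlinarith
    have e2 : z 1 ^ 2 + z 2 ^ 2 + z 3 ^ 2 ≤ z 0 ^ 2 := by nlinarith
    rw [e1] at e
    rw [mul_pow]
    exact e.trans (mul_le_mul_of_nonneg_left e2 (sq_nonneg _))
  have := le_of_sq_le_sq c (mul_nonneg h2.le h0)
  linarith

theorem mdot_sub_r (a x y : V) : GF.mdot a (x - y) = GF.mdot a x - GF.mdot a y := by
  simp only [GF.mdot, Pi.sub_apply, mul_sub, Finset.sum_sub_distrib]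

/-- opposite wedges are space-like separated -/
theorem wdg_sep {a b : V} (ha : IsNull a) (hb : IsNull b) {f g : Fn} (hf : In (Wdg b a 0) f)
    (hg : In (Wdg a b 0) g) : Sep f g := by
  intro x hx y hy
  obtain ⟨x1, x2⟩ := hf.2.2 hx
  obtain ⟨y1, y2⟩ := hg.2.2 hy
  rw [sub_zero] at x1 x2 y1 y2
  show GF.mdot (x - y) (x - y) < 0
  by_contra h
  have h' := not_lt.1 h
  rcases le_total 0 ((x - y) o) with k | k
  · have := null_pos hb h' k
    rw [mdot_sub_r] at this
    linarith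
  · have := null_pos ha (z := y - x) (by rwa [mdot_symm']) (by
      rw [Pi.sub_apply] at k ⊢
      linarith)
    rw [mdot_sub_r] at this
    linarith

theorem in_smul {O : Set V} {f : Fn} (hf : In O f) (c : ℂ) : In O fun x => c * f x :=
  H846.in_mul hf contDiff_const

theorem fld_sm (hB : Q.fld φ) {f : Fn} (hf : GF.IsTest f) (c : ℂ) (v : D) :
    φ (fun x => c * f x) v = c • φ f v := by
  have h := Q.lin φ f f (c - 1) v hB hf hf
  have e : (fun x => f x + (c - 1) * f x) = fun x => c * f x := by funext x; ring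
  rw [e] at h
  rw [h, sub_smul, one_smul]
  abel

/-- the smeared field as a linear map -/
def lm (hB : Q.fld φ) {f : Fn} (hf : GF.IsTest f) : D →ₗ[ℂ] D where
  toFun := φ f
  map_add' := fadd hB hf
  map_smul' c v := fsmul hB hf c v

theorem bar_rs {f : Fn} (e : bar f = f) (t : ℝ) : (bar fun x => (t : ℂ) * f x) = fun x => t * f x := by
  funext x
  have := congrFun e x
  simp only [bar] at this ⊢
  rw [star_mul', this, Complex.star_def, Complex.conj_ofReal]

theorem gen_sm (hB : Q.fld φ) {O : Set V} {f : Fn} {X : D →ₗ[ℂ] D} (hf : In O f) (e : bar f = f)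
    (hX : ∀ v, X v = φ f v) (t : ℝ) : W ((t : ℂ) • X) ∈ gen φ O :=
  ⟨_, _, in_smul hf t, bar_rs e t, fun v => by rw [fld_sm hB hf.1, LinearMap.smul_apply, hX], rfl⟩

theorem gen_star (hB : Q.fld φ) (an : Ana φ) (O : Set V) : ∀ g ∈ gen φ O, star g ∈ gen φ O := by
  rintro _ ⟨f, X, hf, e, hX, rfl⟩
  rw [(an f X hf.1 e hX).star_W]
  simpa using gen_sm hB hf e hX (-1)

theorem net_mono (hB : Q.fld φ) (an : Ana φ) (O O' : Set V) (h : O ⊆ O') :
    ∀ X ∈ net φ O, X ∈ net φ O' :=
  vn_mono (gen_star hB an O) (gen_star hB an O') fun _ ⟨f, X, hf, r⟩ =>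
    ⟨f, X, ⟨hf.1, hf.2.1, hf.2.2.trans h⟩, r⟩

theorem net_loc (hB : Q.bose φ) (an : Ana φ) (a b : V) (X : Completion D →L[ℂ] Completion D)
    (ha : IsNull a) (hb : IsNull b) (m : X ∈ net φ (Wdg b a 0)) :
    X ∈ (net φ (Wdg a b 0)).commutant := by
  have hF := Q.bose_fld φ hB
  refine vn_loc (gen_star hF an _) (gen_star hF an _) ?_ X m
  rintro _ ⟨f, Y, hf, e, hY, rfl⟩ _ ⟨g, Z, hg, e', hZ, rfl⟩
  refine (an f Y hf.1 e hY).comm (an g Z hg.1 e' hZ) (LinearMap.ext fun v => ?_)
  rw [Module.End.mul_apply, Module.End.mul_apply, hY, hZ, hZ, hY]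
  exact Q.loc φ φ f g v hB hF hf.1 hg.1 (wdg_sep ha hb hf hg)

theorem sim_smooth (s : ℝ) (L : Ix → V) (y : V) : ContDiff ℝ ∞ (sim s L y) := by
  unfold sim
  fun_prop

theorem net_cov (hR : Rep Q A) (hφ : Q.IsScalar φ d) (an : Ana φ) (s : ℝ) (L : Ix → V) (y : V)
    (O : Set V) (X : Completion D →L[ℂ] Completion D) (m : X ∈ net φ O) (hs : 0 < s)
    (hL : IsLor L) : ∃ Y ∈ net φ (sim s L y '' O), ∀ z, Y (Ue Q s L y z) = Ue Q s L y (X z) := by
  have hF := Q.bose_fld φ hφ.1
  obtain ⟨E, hE⟩ := (ublock hR).lin s L y hs hL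
  let U : Completion D →L[ℂ] Completion D := E.toContinuousLinearEquiv
  let U' : Completion D →L[ℂ] Completion D := E.symm.toContinuousLinearEquiv
  have hU : ∀ z, U z = Ue Q s L y z := hE
  set τ := sim s⁻¹ (linv L) (-(sim s⁻¹ (linv L) 0 y)) with hτ
  have i1 : ∀ x, sim s L y (τ x) = x := ue_sim hs hL y
  have i2 : ∀ x, τ (sim s L y x) = x := by
    intro x
    have k := ue_sim (inv_pos.2 hs) (isLor_linv hL) (-(sim s⁻¹ (linv L) 0 y))
    rw [← hτ] at k
    rw [(congrArg (sim s L y) (k x).symm).trans (i1 _)]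
    exact k x
  obtain ⟨Y, hY, e⟩ := vn_cov (gen_star hF an O) (gen_star hF an (sim s L y '' O)) U U'
    (ContinuousLinearMap.ext E.apply_symm_apply) (ContinuousLinearMap.ext E.symm_apply_apply) (by
      rintro _ ⟨f, Z, hf, e, hZ, rfl⟩
      obtain ⟨F, hFf⟩ := hf.1
      have sm : ContDiff ℝ ∞ f := by rw [← hFf]; exact F.smooth ⊤
      have sub : tsupport (fun x => f (τ x)) ⊆ sim s L y '' tsupport f :=
        closure_minimal (fun x hx => ⟨τ x, subset_closure hx, i1 x⟩)
          (hf.2.1.isCompact.image (sim_cont s L y)).isClosed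
      have cs : HasCompactSupport fun x => f (τ x) :=
        (hf.2.1.isCompact.image (sim_cont s L y)).of_isClosed_subset (isClosed_tsupport _) sub
      have hg : In (sim s L y '' O) fun x => f (τ x) :=
        ⟨⟨cs.toSchwartzMap (sm.comp (sim_smooth _ _ _)), rfl⟩, cs,
          sub.trans (Set.image_mono hf.2.2)⟩
      have eg : (bar fun x => f (τ x)) = fun x => f (τ x) := funext fun x => congrFun e (τ x)
      have p0 : (0 : ℝ) < s ^ (4 - d) := Real.rpow_pos_of_pos hs _
      have hg' := in_smul hg ((s ^ (4 - d))⁻¹ : ℝ)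
      have eg' := bar_rs eg (s ^ (4 - d))⁻¹
      refine ⟨_, ⟨_, lm hF hg'.1, hg', eg', fun v => rfl, rfl⟩, ?_⟩
      refine (an f Z hf.1 e hZ).cov (an _ _ hg'.1 eg' fun v => rfl) (ueI Q hs hL y).toLinearMap U
        (fun v => (hU v).trans (ue_coe hs hL y v)) fun v => ?_
      show Q.U s L y (Z v) = φ _ (Q.U s L y v)
      rw [fld_sm hF hg.1, hφ.2.2 s L y _ v hs hL hg.1, smul_smul, ← Complex.ofReal_mul,
        inv_mul_cancel₀ p0.ne', Complex.ofReal_one, one_smul, hZ]
      simp only [i2]) X m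
  exact ⟨Y, hY, fun z => by rw [← hU, ← hU]; exact DFunLike.congr_fun e z⟩

/-- the commutant of the net commutes weakly with the field -/
theorem net_weak (hφ : Q.IsScalar φ d) (an : Ana φ) {O : Set V} {f : Fn} (hf : In O f)
    {Y : Completion D →L[ℂ] Completion D} (hY : Y ∈ (net φ O).commutant) (v w : D) :
    inner ℂ ((φ (bar f) w : D) : Completion D) (Y v) =
      inner ℂ (w : Completion D) (Y (φ f v : D)) := by
  have hF := Q.bose_fld φ hφ.1
  rw [net, vn_comm, mem_cmt (gen_star hF an O)] at hY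
  have re : ∀ g, In O g → bar g = g → inner ℂ ((φ g w : D) : Completion D) (Y v) =
      inner ℂ (w : Completion D) (Y (φ g v : D)) := fun g hg e =>
    (an g (lm hF hg.1) hg.1 e fun v => rfl).weak Y
      (fun t _ => hY _ (gen_sm hF hg e (fun v => rfl) t)) v w
  have h1 := H846.in_add hf hf.bar 1
  have h2 := in_smul (H846.in_add hf hf.bar (-1)) Complex.I
  have a1 := re _ h1 (by funext x; simp [bar, add_comm])
  have a2 := re _ h2 (by funext x; simp [bar]; ring)
  rw [fld_sm hF (H846.in_add hf hf.bar (-1)).1, fld_sm hF (H846.in_add hf hf.bar (-1)).1] at a2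
  rw [Q.lin φ f _ _ _ hF hf.1 hf.bar.1, Q.lin φ f _ _ _ hF hf.1 hf.bar.1] at a1 a2
  simp only [Completion.coe_add, Completion.coe_smul, map_add, map_smul, inner_add_left,
    inner_add_right, inner_smul_left, inner_smul_right, Complex.conj_I, map_one, map_neg] at a1 a2
  linear_combination (1 / 2 : ℂ) * a1 - (Complex.I / 2) * a2 -
    (inner ℂ ((φ f w : D) : Completion D) (Y v) - inner ℂ ((φ (bar f) w : D) : Completion D) (Y v) +
      inner ℂ (w : Completion D) (Y (φ f v : D)) -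
      inner ℂ (w : Completion D) (Y (φ (bar f) v : D))) / 2 * Complex.I_mul_I

/-- the matrix elements of a bounded operator -/
def frm (Y : Completion D →L[ℂ] Completion D) : D →ₗ⋆[ℂ] D →ₗ[ℂ] ℂ :=
  LinearMap.mk₂'ₛₗ (starRingEnd ℂ) (RingHom.id ℂ) (fun w v => inner ℂ (w : Completion D) (Y v))
    (fun _ _ _ => by rw [Completion.coe_add, inner_add_left])
    (fun _ _ _ => by rw [Completion.coe_smul, inner_smul_left, smul_eq_mul])
    (fun _ _ _ => by rw [Completion.coe_add, map_add, inner_add_right])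
    (fun _ _ _ => by rw [Completion.coe_smul, map_smul, inner_smul_right, smul_eq_mul]; rfl)

theorem net_aff (hφ : Q.IsScalar φ d) (an : Ana φ) {B : Fld D} (ps : PS φ B)
    (hm : ∀ f v w, GF.IsTest f → inner ℂ (B f v) w = inner ℂ v (B (bar f) w)) {O : Set V}
    (hO : IsOpen O) {f : Fn} (hf : In O f) : Aff (net φ O) (B f) :=
  ⟨B (bar f), fun v w => hm f v w hf.1, fun Y hY v w => ps O f (frm Y) hO hf
    (fun v => by
      show Continuous fun w : D => inner ℂ (w : Completion D) (Y v)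
      exact (Completion.continuous_coe D).inner continuous_const)
    (fun w => by
      show Continuous fun v : D => inner ℂ (w : Completion D) (Y v)
      exact continuous_const.inner (Y.continuous.comp (Completion.continuous_coe D)))
    (fun g w v hg => net_weak hφ an hg hY v w) w v⟩

/-- **the local net** -/
theorem lnm0 (hR : Rep Q A) (hφ : Q.IsScalar φ d) (an : Ana φ) (r : Raw φ Q.fld) :
    ∃ N, LNm Q A N :=
  have hF := Q.bose_fld φ hφ.1
  hull hR (net φ)
    (fun _ B _ hO hB hf => net_aff hφ an (r.ps B hB) (fun f v w h => r.herm B f v w hB h) hO hf)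
    (net_mono hF an) (fun s L y O X m hs hL => net_cov hR hφ an s L y O X m hs hL)
    fun a b X ha hb _ m => net_loc hφ.1 an a b X ha hb m

/-- number operator bounds; `P n v` : the vector `v` has at most `n` particles -/
theorem ana_of (hφ : Q.IsScalar φ d) (P : ℕ → D → Prop) (ex : ∀ v, ∃ n, P n v)
    (map : ∀ f n v, GF.IsTest f → P n v → P (n + 1) (φ f v))
    (bd : ∀ f, GF.IsTest f → ∃ C : ℝ, ∀ n v, P n v → ‖φ f v‖ ≤ C * √(n + 1) * ‖v‖) : Ana φ := by
  intro f X hf e hX
  obtain ⟨C, hC⟩ := bd f hf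
  exact an_of_fil P ex (fun v w => by rw [hX, hX, hφ.2.1 f v w hf, e])
    (fun n v h => by rw [hX]; exact map f n v hf h) C fun n v h => by rw [hX]; exact hC n v h

/-- **the local net**, from the number operator bounds -/
theorem lnm (hR : Rep Q A) (hφ : Q.IsScalar φ d) (r : Raw φ Q.fld)
    (fil : ∃ P : ℕ → D → Prop, (∀ v, ∃ n, P n v) ∧ ∀ g, GF.IsTest g →
      (∀ n v, P n v → P (n + 1) (φ g v)) ∧
        ∃ C : ℝ, ∀ n v, P n v → ‖φ g v‖ ≤ C * √((n : ℝ) + 1) * ‖v‖) : ∃ N, LNm Q A N := by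
  obtain ⟨P, ex, h⟩ := fil
  exact lnm0 hR hφ (ana_of hφ P ex (fun f n v hf => (h f hf).1 n v) fun f hf => (h f hf).2) r

end Vale.Agent.P352W.Net
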